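import Mathlib
import Vale.Agent.CK.Defs
import Vale.Agent.CK.Entropy

/-!
The Courtade-Kumar inequality, for every dimension, every Boolean function and every noise level.
-/

namespace Vale.Agent.Results.P322.CourtadeKumar

open Vale.Agent.CK

/-- No Boolean function of the input carries more information about the noisy output than one
coordinate. -/
theorem result : ∀ (n : ℕ) (f : (Fin n → Bool) → Bool) (ε : ℝ), 0 ≤ ε → ε ≤ 1 / 2 →
    mutualInfo f ε ≤ 1 - Real.binEntropy ε / Real.log 2 :=
  fun _ f _ h0 h1 => mutualInfo_le f h0 h1

end Vale.Agent.Results.P322.CourtadeKumar
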